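import Vale.Agent.P074.Upper

namespace Vale.Agent.Results.P074.NoneAboveThird

open Vale.Agent.P074

/-- No exponent above `1/3` is admissible, in any dimension `d ≥ 2`. -/
theorem result (d : ℕ) (hd : 2 ≤ d) (α : ℝ) (h : 1 / 3 < α) (ha : α ≤ 1) :
    ¬ Admissible d α :=
  not_admissible d hd α h ha

end Vale.Agent.Results.P074.NoneAboveThird
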