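import Vale.Agent.P074.Upper
import Vale.Agent.P074.FinC

namespace Vale.Agent.Results.P074.OneThird

open Vale.Agent.P074

/-- In every dimension `d ≥ 2` the admissible exponents are exactly those at most `1/3`. -/
theorem result (d : ℕ) (hd : 2 ≤ d) (α : ℝ) (h0 : 0 < α) (h1 : α ≤ 1) :
    Admissible d α ↔ α ≤ 1 / 3 :=
  ⟨fun h => not_lt.1 fun hlt => not_admissible d hd α hlt h1 h, fun h => admissible_le h0 h⟩

end Vale.Agent.Results.P074.OneThird
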